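import Vale.Agent.P277.H371.L.OrdL
import Vale.Agent.P277.H762.P.FinPC
import Vale.Agent.P277.H371.C.FlipB

/-!
# P277, (LCY): the numerical coincidences
-/

open scoped Manifold ContDiff Topology
open Vale.Agent.P272.K Vale.Agent.P285.H281.FD Vale.Agent.P267.H175 Set Filter Metric

noncomputable section

namespace Vale.Agent.P277.H371.L

open Vale.Agent.P277 Vale.Agent.P277.T2 Vale.Agent.P277.H335 Vale.Agent.P277.H615
open Vale.Agent.P277.H335.KK Vale.Agent.P277.H762.P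

theorem eq_of_lin {A B C D : ℝ} (h : ∀ t : ℝ, A + t * B < C + t * D) : B = D := by
  by_contra hne
  have h1 := h ((C - A) / (B - D))
  have h2 : B - D ≠ 0 := sub_ne_zero.2 hne
  have h3 : (C - A) / (B - D) * (B - D) = C - A := div_mul_cancel₀ _ h2
  have h4 : (C - A) / (B - D) * B - (C - A) / (B - D) * D = C - A := by rw [← mul_sub]; exact h3
  linarith

/-- the numerical coincidence `g (1 + a') + ∑ τ e κ e = 1`, `g (1 + a) + ∑ ρ e κ e < 1` -/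
def Coi {K : ℕ} (τ ρ : Fin K → ℝ) (a' a : ℝ) : Prop :=
  ∃ (g : ℕ) (κ : Fin K → ℕ), 1 ≤ g ∧ g * (1 + a') + ∑ e, τ e * κ e = 1 ∧
    g * (1 + a) + ∑ e, ρ e * κ e < 1

variable {Y : Type} [TopologicalSpace Y] [T2Space Y] [CompactSpace Y]
    [ChartedSpace (Cm 4) Y] [IsManifold 𝓘(ℂ, Cm 4) ω Y]
    {χ : Chart 4 Y → Cm 4 → Matrix (Fin 4) (Fin 4) ℂ} {k s : ℕ}
    {M : Fin (k + s) → Bd Y} {m : Fin (k + s) → ℕ} {ρ : Fin (k + s) → ℝ} {H : Fin s → Type}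
    [∀ i, TopologicalSpace (H i)] [∀ i, T2Space (H i)] [∀ i, CompactSpace (H i)]
    [∀ i, ConnectedSpace (H i)] [∀ i, ChartedSpace (Cm 3) (H i)]
    [∀ i, IsManifold 𝓘(ℂ, Cm 3) ω (H i)] {ι : ∀ i, H i → Y}
    {sg : ∀ i : Fin s, (M (Fin.natAdd k i)).ι → Y → ℂ} {W : CSp} {X Z : ℕ → CSp} {r : ℕ}
    {v₀ : Y → W.pt} {p : W.pt → (X 0).pt} {P : Bd W.pt} {G : Fin r → Set Y}
    {f : ∀ j, (X j).pt → (Z j).pt} {f' : ∀ j, (X (j + 1)).pt → (Z j).pt}
    {A : ∀ j, Set (Z j).pt} {L : ∀ j, Fin (k + s) → Bd (X j).pt} {c : ℕ → Fin (k + s) → ℕ}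
    {σ : ∀ j, ∀ i : Fin s, (L j (Fin.natAdd k i)).ι → (X j).pt → ℂ}
    {n : Fin (k + s) → Fin r → ℤ} {t : ∀ e, (L 0 e).ι →
      ((((Bd.can 4 Y).pow (m e)).mul (M e)).pow (c 0 e)).ι → Y → ℂ}

/-- a wedge centred in `G l` and in no other `G l'` and no `H i`: the coincidence -/
theorem coinc (h : T3.IsPG χ M m ρ ι sg v₀ p P G f f' A L c σ n t) {τ : Fin (k + s) → ℝ}
    (hτ0 : ∀ e, 0 ≤ τ e) (hτs : ∑ e, τ e * m e = 1)
    (hfl : ∀ u : ℝ, ∀ j, IsFlipR (X j) (Z j) (X (j + 1)) (f j) (f' j) (A j) (L j) (L (j + 1))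
      (c j) (c (j + 1)) fun e => ρ e + u * τ e)
    {l : Fin r} (hl : -1 < ∑ e, τ e * n e l / c 0 e) (j : ℕ) {x₀ : (X (j + 1)).pt}
    (hx₀ : T3.BadPt (f' j ⁻¹' Amin (f j)) (T3.Cor (⋃ l, G l) (fun y => p (v₀ y)) f f' (j + 1))
      (G l \ ((⋃ l' ∈ {l' | l' ≠ l}, G l') ∪ ⋃ i, range (ι i))) x₀) :
    Coi τ ρ (∑ e, τ e * n e l / c 0 e) (∑ e, ρ e * n e l / c 0 e) := by
  have hsum : ∑ e : Fin k, ρ (Fin.castAdd s e) * m (Fin.castAdd s e) = 1 := by
    have h1 := h.sum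
    rw [Fin.sum_univ_add] at h1
    simpa only [h.m0, Nat.cast_zero, mul_zero, Finset.sum_const_zero, add_zero] using h1
  have hk : 1 ≤ k := by
    rcases Nat.eq_zero_or_pos k with rfl | h1
    · simp at hsum
    · exact h1
  have hks : 1 ≤ k + s := by omega
  have hn' : ∀ l, 0 ≤ ∑ e, ρ e * n e l / c 0 e ∨ G l ⊆ (univ : Set Y) := fun l =>
    Or.inr (subset_univ _)
  obtain ⟨O, v, P', Q', T, hT⟩ := H884.G.exists_twSeqG H884.stL0 hks h.lb h.res h.c1 h.cmp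
    h.corr hn' h.flip
  have hTw := hT.tw j
  have hch := exists_chainK H884.stL0 hks (h.flip 0).flip.normal h.lb h.res h.cmp hT j
  have hsub := hT.sub_compl j
  have hCr : ∀ y x, T3.Cor (⋃ l, G l) (fun y => p (v₀ y)) f f' (j + 1) y x ↔
      y ∈ O (j + 1) ∧ v (j + 1) y = x := fun y x => cor_iff' hT (j + 1) y x
  obtain ⟨ξ, R, W₀, w₀, γa, cha, hR, hinj, hopen, hhol, hξS, hW₀, hw₀, hw₀0, hx0, hdat⟩ := hx₀
  have hξ : H19.LocIso (X (j + 1)) ξ (ball 0 R) := ⟨isOpen_ball, hinj, hopen, hhol⟩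
  obtain ⟨W₁, w₂, γ, ch, μ, i, x, J, κ, g, ζ, ν, hWW, hg, hagr, hJ1, hlt, hx, hκ, hsg, hGl⟩ :=
    exists_germP (H19.stTD_of_core TD.stCore) H884.stDis hks h.lb hTw.tw1 hch hsub hCr
      (β := Fin.natAdd k) (sg := sg) (fun i => (h.bd i).sec) (fun i a y hy => bd_freq (h.bd i) a y hy)
      hξ hξS hW₀ hw₀ hw₀0 fun w hw => ⟨(hdat w hw).1, (hdat w hw).2.1, (hdat w hw).2.2.1,
        (hdat w hw).2.2.2.1, (hdat w hw).2.2.2.2.1, fun h0 => ((hdat w hw).2.2.2.2.2 h0).2⟩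
  choose Φg hΦg hΦg0 hgg using hsg
  choose hζ Φ hΦ hΦ0 hζΦ using hGl
  obtain ⟨ΦJ, hΦ1, hΦ2, hΦ3⟩ := hg.jac
  have hWB : ∀ w ∈ W₁, bl w ∈ ball (0 : Cm 4) R := fun w hw => (hdat w (hWW hw)).1
  have hQ1 : ∀ e, 1 ≤ Q' (j + 1) e := fun e => (hTw.tw e).hQ
  have hQ0 : ∀ e, (0 : ℝ) < Q' (j + 1) e := fun e => by exact_mod_cast hQ1 e
  -- the centre
  have hcen : γ w₂ ∈ G l \ ((⋃ l' ∈ {l' | l' ≠ l}, G l') ∪ ⋃ i, range (ι i)) := by
    rw [hagr w₂ hg.mem]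
    exact ((hdat w₂ (hWW hg.mem)).2.2.2.2.2 hg.zero).1
  have hinG : ∀ l, γ w₂ ∈ G l ↔ 1 ≤ ν l := by
    intro l
    have h1 := (hζ l).1.self_of_nhds
    rw [(hζΦ l).self_of_nhds, hg.zero] at h1
    rw [← h1]
    constructor
    · intro h2
      by_contra h3
      have h4 : ν l = 0 := by omega
      rw [h4, pow_zero, one_mul] at h2
      exact hΦ0 l h2
    · intro h2
      rw [zero_pow (by omega), zero_mul]
  have hν1 : 1 ≤ ν l := (hinG l).1 hcen.1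
  have hν0 : ∀ l', l' ≠ l → ν l' = 0 := by
    intro l' hne
    by_contra h1
    exact hcen.2 (Or.inl (mem_iUnion₂.2 ⟨l', hne, (hinG l').2 (by omega)⟩))
  have hg0 : ∀ b, g b = 0 := by
    intro b
    have h1 := (h.bd b).zero _ _ (hg.memN w₂ hg.mem (Fin.natAdd k b))
    rw [(hgg b).self_of_nhds, hg.zero] at h1
    by_contra h2
    refine hcen.2 (Or.inr (mem_iUnion.2 ⟨b, h1.1 ?_⟩))
    rw [zero_pow h2, zero_mul]
  -- the multiplicities
  have hσ : ∀ i, IsSecx (X (j + 1)) univ (L (j + 1) (Fin.natAdd k i)) (σ (j + 1) i) := fun ν =>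
    (h.flip (j + 1)).sec ν
  have hmult : ∀ b : Fin s, 0 ≤ g b + κ (Fin.natAdd k b) := by
    intro b
    have h1 := hg.mult hsub (e := Fin.natAdd k b) (P := P' (j + 1) (Fin.natAdd k b)) (hQ1 _)
      (κ := κ (Fin.natAdd k b)) (by rw [hx, h.m0 b]; push_cast; ring) (sg := sg b)
      (η := fun a x => σ (j + 1) b a x ^ P' (j + 1) (Fin.natAdd k b))
      ⟨fun a x hx ha => hol_pow ((hσ b).holo a x hx ha) _,
        fun a a' x hx ha ha' => by
          show σ (j + 1) b a x ^ _ = (L (j + 1) (Fin.natAdd k b)).g a a' x ^ _ *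
            σ (j + 1) b a' x ^ _
          rw [(hσ b).change a a' x hx ha ha', mul_pow]⟩
      (fun y hy a b' ha hb' => by
        have h1 := hT.sec (j + 1) b y a b'.1 b'.2 hy ha hb'.1 hb'.2
        rw [mul_comm]
        exact h1) (hΦg b) (hΦg0 b) (hgg b)
    exact h1.1
  have hκ0 : ∀ e, 0 ≤ κ e := by
    intro e
    induction e using Fin.addCases with
    | left e => exact hκ _ χ h.kahler (h.nef e)
    | right b =>
      have h1 := hmult b
      rw [hg0 b] at h1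
      simpa using h1
  -- the order of the Jacobian
  have hνJ : ν l ≤ J := by
    by_contra hcon
    have h2 : 2 ≤ ν l := by omega
    have hcy := hg.lift w₂ hg.mem
    have hz0 : ζ l (γ w₂) = 0 := by
      rw [(hζΦ l).self_of_nhds, hg.zero, zero_pow (by omega), zero_mul]
    obtain ⟨m1, m2⟩ := (hζ l).2 ch hcy.2.1
    have h3 := eventually_pair hg.zero hcy.1 hcy.2.1 hcy.2.2 m1 (m2 hz0) h2 (hΦ l) (hΦ0 l)
      hΦ1 hΦ2 (hζΦ l) hΦ3 hcon (hg.isOpen.mem_nhds hg.mem)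
    obtain ⟨w, ⟨hwO, hw0⟩, hpair, hwW⟩ := ((hg.freqO hsub hg.mem).and_eventually
      (h3.and (hg.isOpen.mem_nhds hg.mem))).exists
    obtain ⟨w', hw'W, hne, hγγ⟩ := hpair hw0
    have h4 : ξ (bl w) = ξ (bl w') := by
      have h5 := hg.lift2 w hwW hwO
      have h6 := hg.lift2 w' hw'W (by rw [hγγ]; exact hwO)
      rw [hγγ] at h6
      exact h5.symm.trans h6
    exact hne (bl_inj (hξ.inj (hWB w hwW) (hWB w' hw'W) h4) hw0).symm
  -- the equality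
  have heq : ∑ l', (∑ e, τ e * n e l' / c 0 e) * ν l' = ∑ e, τ e / Q' (j + 1) e * (x e : ℝ) := by
    refine eq_of_lin (A := ∑ l', (∑ e, ρ e * n e l' / c 0 e) * ν l')
      (C := ∑ e, ρ e / Q' (j + 1) e * (x e : ℝ)) fun u => ?_
    have h1 := ord_lt hks h.lb hTw.tw1 (chainK_all H884.stL0 hks (h.flip 0).flip.normal h.lb h.res
      h.cmp hT h.c1 (fun j => H371.C.IsFlipR.amin (hfl u j) (h.c1 j)) j) hsub hg hζ hΦ hΦ0 hζΦ
    have h2 : ∑ l', (∑ e, (ρ e + u * τ e) * n e l' / c 0 e) * (ν l' : ℝ) =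
        ∑ l', (∑ e, ρ e * n e l' / c 0 e) * ν l' +
          u * ∑ l', (∑ e, τ e * n e l' / c 0 e) * ν l' := by
      rw [Finset.mul_sum, ← Finset.sum_add_distrib]
      refine Finset.sum_congr rfl fun l' _ => ?_
      have h3 : ∑ e, (ρ e + u * τ e) * (n e l' : ℝ) / c 0 e =
          ∑ e, ρ e * n e l' / c 0 e + u * ∑ e, τ e * n e l' / c 0 e := by
        rw [Finset.mul_sum, ← Finset.sum_add_distrib]
        exact Finset.sum_congr rfl fun e _ => by ring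
      rw [h3]
      ring
    have h4 : ∑ e, (ρ e + u * τ e) / Q' (j + 1) e * (x e : ℝ) =
        ∑ e, ρ e / Q' (j + 1) e * (x e : ℝ) + u * ∑ e, τ e / Q' (j + 1) e * (x e : ℝ) := by
      rw [Finset.mul_sum, ← Finset.sum_add_distrib]
      exact Finset.sum_congr rfl fun e _ => by ring
    rw [← h2, ← h4]
    exact h1
  have hlhs : ∑ l', (∑ e, τ e * n e l' / c 0 e) * (ν l' : ℝ) =
      (∑ e, τ e * n e l / c 0 e) * ν l :=
    Finset.sum_eq_single l (fun l' _ hne => by rw [hν0 l' hne, Nat.cast_zero, mul_zero])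
      fun h1 => absurd (Finset.mem_univ l) h1
  have hrhs : ∑ e, τ e / Q' (j + 1) e * (x e : ℝ) = 1 - J - ∑ e, τ e * (κ e : ℝ) := by
    have h2 : ∀ e, τ e / Q' (j + 1) e * (x e : ℝ) = τ e * m e * (1 - J) - τ e * κ e := by
      intro e
      rw [hx e]
      have := hQ0 e
      push_cast
      field_simp
    simp only [h2]
    rw [Finset.sum_sub_distrib, ← Finset.sum_mul, hτs, one_mul]
  rw [hlhs, hrhs] at heq
  have hκs : 0 ≤ ∑ e, τ e * (κ e : ℝ) :=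
    Finset.sum_nonneg fun e _ => mul_nonneg (hτ0 e) (by exact_mod_cast hκ0 e)
  have hJν : ν l = J := by
    by_contra hcon
    have h2 : ν l + 1 ≤ J := by omega
    have h3 : (ν l : ℝ) + 1 ≤ J := by exact_mod_cast h2
    have h4 : (1 : ℝ) ≤ ν l := by exact_mod_cast hν1
    nlinarith
  have h5 : ∀ ρ' : Fin (k + s) → ℝ,
      ∑ e, ρ' e * (((κ e).toNat : ℕ) : ℝ) = ∑ e, ρ' e * (κ e : ℝ) := by
    intro ρ'
    refine Finset.sum_congr rfl fun e _ => ?_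
    have h6 : (((κ e).toNat : ℕ) : ℤ) = κ e := Int.toNat_of_nonneg (hκ0 e)
    have h8 : (((κ e).toNat : ℕ) : ℝ) = (κ e : ℝ) := by exact_mod_cast congrArg (Int.cast (R := ℝ)) h6
    rw [h8]
  have h7 : (ν l : ℝ) = J := by exact_mod_cast hJν
  have hlhs' : ∑ l', (∑ e, ρ e * n e l' / c 0 e) * (ν l' : ℝ) =
      (∑ e, ρ e * n e l / c 0 e) * ν l :=
    Finset.sum_eq_single l (fun l' _ hne => by rw [hν0 l' hne, Nat.cast_zero, mul_zero])
      fun h1 => absurd (Finset.mem_univ l) h1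
  have hrhs' : ∑ e, ρ e / Q' (j + 1) e * (x e : ℝ) = 1 - J - ∑ e, ρ e * (κ e : ℝ) := by
    have h2 : ∀ e, ρ e / Q' (j + 1) e * (x e : ℝ) = ρ e * m e * (1 - J) - ρ e * κ e := by
      intro e
      rw [hx e]
      have := hQ0 e
      push_cast
      field_simp
    simp only [h2]
    rw [Finset.sum_sub_distrib, ← Finset.sum_mul, h.sum, one_mul]
  rw [hlhs', hrhs'] at hlt
  refine ⟨ν l, fun e => (κ e).toNat, hν1, ?_, ?_⟩
  · rw [h5, h7]
    rw [h7] at heq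
    linarith
  · rw [h5, h7]
    rw [h7] at hlt
    linarith

end Vale.Agent.P277.H371.L
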