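import Vale.Agent.P277.H371.L.Coinc
import Vale.Agent.P277.H884.T.T6HF
import Vale.Agent.P277.H371.T.FinCoreD
import Vale.Agent.P277.H29.E.T7H
import Vale.Agent.P277.H335.C.T6fin

/-!
# P277, (LCY): the assembly
-/

set_option maxSynthPendingDepth 3

open scoped Manifold ContDiff Topology
open Vale.Agent.P272.K Vale.Agent.P285.H281.FD Vale.Agent.P267.H175 Set Filter Metric

noncomputable section

namespace Vale.Agent.P277.H371.L

open Vale.Agent.P277 Vale.Agent.P277.T3 H615 H371.C H29.E H884.T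

section

variable {Y : Type} [TopologicalSpace Y] [T2Space Y] [CompactSpace Y]
    [ChartedSpace (Cm 4) Y] [IsManifold 𝓘(ℂ, Cm 4) ω Y]
    {χ : Chart 4 Y → Cm 4 → Matrix (Fin 4) (Fin 4) ℂ} {k s : ℕ}
    {M : Fin (k + s) → Bd Y} {m : Fin (k + s) → ℕ} {ρ : Fin (k + s) → ℝ} {H : Fin s → Type}
    [∀ i, TopologicalSpace (H i)] [∀ i, T2Space (H i)] [∀ i, CompactSpace (H i)]
    [∀ i, ConnectedSpace (H i)] [∀ i, ChartedSpace (Cm 3) (H i)]
    [∀ i, IsManifold 𝓘(ℂ, Cm 3) ω (H i)] {ι : ∀ i, H i → Y}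
    {sg : ∀ i : Fin s, (M (Fin.natAdd k i)).ι → Y → ℂ} {W : CSp} {X Z : ℕ → CSp} {r : ℕ}
    {v : Y → W.pt} {p : W.pt → (X 0).pt} {P : Bd W.pt} {G : Fin r → Set Y}
    {f : ∀ j, (X j).pt → (Z j).pt} {f' : ∀ j, (X (j + 1)).pt → (Z j).pt}
    {A : ∀ j, Set (Z j).pt} {L : ∀ j, Fin (k + s) → Bd (X j).pt} {c : ℕ → Fin (k + s) → ℕ}
    {σ : ∀ j, ∀ i : Fin s, (L j (Fin.natAdd k i)).ι → (X j).pt → ℂ}
    {n : Fin (k + s) → Fin r → ℤ} {t : ∀ e, (L 0 e).ι →
      ((((Bd.can 4 Y).pow (m e)).mul (M e)).pow (c 0 e)).ι → Y → ℂ}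

/-- klt pairs: finiteness, if no wedges are centred in the hit `G l` with `a l < 0` -/
theorem fin_no (h' : IsPG χ M m ρ ι sg v p P G f f' A L c σ n t) {a : Fin r → ℝ}
    (ha' : ∀ l, a l = ∑ e, ρ e * n e l / c 0 e)
    (hor : (∀ N, ∃ j ≥ N, HasRes (X j) ∨ ¬ DimLe (X (j + 1)) 1 {x | f' j x ∈ Amin (f j)}) ∨
      ∀ j, DimLe (X (j + 1)) 1 {x | f' j x ∈ Amin (f j) ∧ ¬ IsReg 4 (X (j + 1)) x})
    (hb : ∀ i : Fin s, ρ (Fin.natAdd k i) < 1) (hklt : ∀ l, -1 < a l)
    (hd1 : ∀ l l', l ≠ l' → a l < 0 → a l' < 0 → Disjoint (G l) (G l'))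
    (hd2 : ∀ l i, a l < 0 → Disjoint (G l) (range (ι i)))
    (hd3 : ∀ l l', l ≠ l' → a l < 0 → ¬ G l ⊆ G l')
    (hno : ∀ l, a l < 0 → ZD (fun y => p (v y)) (hit f f') (G l) → ∀ j x,
      ¬ BadPt (f' j ⁻¹' Amin (f j)) (Cor (⋃ l, G l) (fun y => p (v y)) f f' (j + 1))
        (G l \ ((⋃ l' ∈ {l' | l' ≠ l}, G l') ∪ ⋃ i, range (ι i))) x) : False := by
  classical
  have h := h'.amin
  have hres := h.res
  set Hh : Set Y := {y | p (v y) ∈ hit f f'} with hHh
  have hvc : Continuous fun y => p (v y) := hres.cont.comp (continuousOn_univ.1 hres.emb.cont)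
  have hneY : Nonempty Y := by
    have h3 := (h.flip 0).flip.ninj
    rw [Function.Injective] at h3
    push Not at h3
    obtain ⟨x, -⟩ := h3
    obtain ⟨w, -⟩ := hres.psurj x
    obtain ⟨y, -⟩ := hres.surj w
    exact ⟨y⟩
  have hneX : ∀ j, Nonempty (X j).pt := by
    intro j
    have h3 := (h.flip j).flip.ninj
    rw [Function.Injective] at h3
    push Not at h3
    obtain ⟨x, -⟩ := h3
    exact ⟨x⟩
  have hcross : cross ι G {l | a l < 0} = ∅ := by
    refine eq_empty_of_forall_notMem ?_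
    rintro y ⟨l, hl, hy, ⟨l', hl', hne', hy'⟩ | ⟨i, hi⟩⟩
    · exact disjoint_left.1 (hd1 l' l hne' hl' hl) hy' hy
    · exact disjoint_left.1 (hd2 l i hl) hy hi
  have hbad0 : bad ι G ∅ ∅ = ∅ := by
    refine eq_empty_of_forall_notMem fun y hy => ?_
    rcases hy with hy | hy
    · obtain ⟨l, hl, -⟩ := mem_iUnion₂.1 hy
      exact hl
    · obtain ⟨i, hi, -⟩ := mem_iUnion₂.1 hy
      exact hi
  -- the closed analytic sets which contain the hit points
  set Hd : Fin r → Prop := fun l => ZD (fun y => p (v y)) (hit f f') (G l) with hHd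
  have hex : ∀ l, ∃ D : Set Y, IsClosed D ∧ (∀ y, T3.IsAnAt 4 D y) ∧
      (¬ Hd l → G l ∩ Hh ⊆ D ∧ ¬ G l ⊆ D) ∧ D ⊆ G l := by
    intro l
    by_cases hl : Hd l
    · exact ⟨∅, isClosed_empty, fun y => H60.Z.isAnAt_of_notMem (by simp),
        fun h => (h hl).elim, empty_subset _⟩
    · have hl' := hl
      rw [hHd] at hl'
      simp only [ZD] at hl'
      push Not at hl'
      obtain ⟨C, hC, hC1, y₁, hy₁, hC2⟩ := hl'
      refine ⟨G l ∩ {y | p (v y) ∈ C}, (hres.closed l).inter ((isClosed_of_isAn hC).preimage hvc),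
        fun y => isAnAt_inter (H60.Z.isAnAt_hyp (hres.hyp l) (hres.closed l) y)
          (isAnAt_pre hres hC y), fun _ => ⟨fun y hy => ⟨hy.1, hC1 y hy.1 hy.2⟩, fun h3 =>
          hC2 (h3 hy₁).2⟩, inter_subset_left⟩
  choose D hDc hDan hDG hDsub using hex
  -- the exceptional set
  set E : Fin r × Option (Fin r) → Set Y := fun q => q.2.elim (if Hd q.1 then ∅ else D q.1)
    fun l' => if l' = q.1 then ∅ else G q.1 ∩ G l' with hE
  have hEc : ∀ q, IsClosed (E q) := by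
    rintro ⟨l, _ | l'⟩
    · simp only [hE, Option.elim]
      split_ifs
      · exact isClosed_empty
      · exact hDc l
    · simp only [hE, Option.elim]
      split_ifs
      · exact isClosed_empty
      · exact (hres.closed l).inter (hres.closed l')
  have hEan : ∀ q, ∀ y, T3.IsAnAt 4 (E q) y := by
    rintro ⟨l, _ | l'⟩ y
    · simp only [hE, Option.elim]
      split_ifs
      · exact H60.Z.isAnAt_of_notMem (by simp)
      · exact hDan l y
    · simp only [hE, Option.elim]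
      split_ifs
      · exact H60.Z.isAnAt_of_notMem (by simp)
      · exact isAnAt_inter (H60.Z.isAnAt_hyp (hres.hyp l) (hres.closed l) y)
          (H60.Z.isAnAt_hyp (hres.hyp l') (hres.closed l') y)
  set S : Finset (Fin r × Option (Fin r)) := Finset.univ with hS
  set C : Set Y := ⋃ q ∈ S, E q with hC
  have hCc : IsClosed C := isClosed_biUnion_finset fun q _ => hEc q
  have hCan : ∀ y, T3.IsAnAt 4 C y := fun y => H60.Z.isAnAt_biUnion S fun q _ => hEan q y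
  have hGC : ∀ l ∈ {l | a l < 0}, (G l).Nonempty → ¬ G l ⊆ C := by
    intro l hl hn
    refine not_sub_biUnion (hres.hyp l) (hres.conn l) hn hEc hEan S ?_
    rintro ⟨l₁, _ | l₂⟩ - h3
    · simp only [hE, Option.elim] at h3
      split_ifs at h3 with h4
      · obtain ⟨y, hy⟩ := hn
        exact (h3 hy).elim
      · by_cases h5 : l₁ = l
        · subst h5
          exact (hDG l₁ h4).2 h3
        · exact hd3 l l₁ (fun h6 => h5 h6.symm) hl (h3.trans (hDsub l₁))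
    · simp only [hE, Option.elim] at h3
      split_ifs at h3 with h4
      · obtain ⟨y, hy⟩ := hn
        exact (h3 hy).elim
      · by_cases h5 : l₁ = l
        · subst h5
          exact hd3 l₁ l₂ (fun h6 => h4 h6.symm) hl fun y hy => (h3 hy).2
        · exact hd3 l l₁ (fun h6 => h5 h6.symm) hl fun y hy => (h3 hy).1
  have hCd : ∀ l ∈ {l | a l < 0}, G l ⊆ closure (G l \ C) := by
    intro l hl
    rcases (G l).eq_empty_or_nonempty with h3 | h3
    · rw [h3]; exact empty_subset _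
    · exact sub_closure_an (hres.hyp l) (hres.conn l) hCc hCan (hGC l hl h3)
  -- regularity
  have hreg : ∃ J, ∀ j ≥ J, DimLe (X (j + 1)) 1
      {x | x ∈ f' j ⁻¹' Amin (f j) ∧ ¬ IsReg 4 (X (j + 1)) x} := by
    have h1 := H335.CC.stT6fin Y χ k s M m ρ H ι sg W X Z r v p P G f f' _ L c σ n t h
      ∅ {l | a l < 0} ∅ (fun l _ hlK => by
        rw [← ha']
        exact not_lt.1 hlK) (fun i _ => (hb i).le) fun l hl => by
        rw [← ha']; exact (hklt l).le
    obtain ⟨J, hJ⟩ := h1.bddAbove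
    refine ⟨J + 1, fun j hj => ?_⟩
    by_contra hcon
    have h2 : j ≤ J := by
      refine hJ (show j ∈ _ from fun h3 => hcon (h3.mono ?_))
      rintro x ⟨g1, g2⟩
      refine ⟨g1, g2, ?_⟩
      rintro ⟨y, hy, -⟩
      rw [hbad0, hcross, union_empty] at hy
      exact hy
    omega
  obtain ⟨J₁, hreg⟩ := hreg
  have hP := H335.MM.stP7M Y χ k s M m ρ H ι sg W X Z r v p P G f f' _ L c σ n t h
      ∅ {l | a l < 0} ∅ (fun l _ hlK => ?_) (fun l hl => ?_) (fun i hi => hb i)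
      C hCc hCd (fun l hl => ?_) J₁ (fun j hj => hreg j hj) fun j hj => ?_
  · rcases hor with hr | hr
    · exact H371.T.fin_coreD H615.X.stContrS h.lb h.bd h.res h.ne h.c1 h.cmp h.corr h.flip hP hr
    · exact H371.G.fin_core stContr h.lb h.bd h.res h.ne h.c1 h.cmp h.corr h.flip hr hP
  · rw [← ha']; exact not_lt.1 hlK
  · rw [← ha']; exact hklt l
  · exact H335.MM.stSurf (hres.hyp l) (hres.closed l) hCc hCan (hCd l hl)
  · have := hneX (j + 1)
    refine dimLe_empty.mono ?_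
    rintro x ⟨ξ, r', V, w₀, γ, ch, g1, g2, g3, g4, g5, g6, g7, g8, g9, g10⟩
    have hcen : ∀ w ∈ V, w 0 = 0 → ∃ l, a l < 0 ∧ γ w ∈ G l ∧ γ w ∉ C := by
      intro w hw hw0
      have h3 := ((g10 w hw).2.2.2.2.2 hw0).1
      rw [hbad0, hcross, union_empty, empty_union] at h3
      obtain ⟨l, hl, h4⟩ := mem_iUnion₂.1 h3
      exact ⟨l, hl, h4.1, h4.2⟩
    obtain ⟨l, hl, hγl, hγC⟩ := hcen w₀ g7 g8
    -- shrink
    have hev : ∀ᶠ w in 𝓝 w₀, w ∈ V ∧ ∀ l', l' ≠ l → a l' < 0 → γ w ∉ G l' := by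
      refine (g6.eventually_mem g7).and ?_
      rw [eventually_all]
      intro l'
      by_cases h3 : l' ≠ l ∧ a l' < 0
      · have h4 : γ w₀ ∈ (G l')ᶜ := fun h5 => disjoint_left.1 (hd1 l' l h3.1 h3.2 hl) h5 hγl
        filter_upwards [(g10 w₀ g7).2.2.1.eventually_mem ((hres.closed l').isOpen_compl.mem_nhds h4)]
          with w hw _ _ using hw
      · exact Eventually.of_forall fun w h4 h5 => (h3 ⟨h4, h5⟩).elim
    obtain ⟨V', hV's, hV', hw₀V'⟩ := _root_.mem_nhds_iff.1 hev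
    have hcen' : ∀ w ∈ V', w 0 = 0 → γ w ∈ G l ∧ γ w ∉ C := by
      intro w hw hw0
      obtain ⟨l', h3, h4, h5⟩ := hcen w (hV's hw).1 hw0
      by_cases h6 : l' = l
      · rw [← h6]; exact ⟨h4, h5⟩
      · exact ((hV's hw).2 l' h6 h3 h4).elim
    have hnotin : ∀ y ∈ G l, y ∉ C →
        y ∈ G l \ ((⋃ l' ∈ {l' | l' ≠ l}, G l') ∪ ⋃ i, range (ι i)) := by
      intro y hy hyC
      refine ⟨hy, ?_⟩
      rintro (h3 | h3)
      · obtain ⟨l', h4, h5⟩ := mem_iUnion₂.1 h3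
        refine hyC (mem_iUnion₂.2 ⟨(l, some l'), Finset.mem_univ _, ?_⟩)
        simp only [hE, Option.elim]
        rw [if_neg h4]
        exact ⟨hy, h5⟩
      · obtain ⟨i, h4⟩ := mem_iUnion.1 h3
        exact disjoint_left.1 (hd2 l i hl) hy h4
    have hbp : BadPt (f' j ⁻¹' Amin (f j)) (Cor (⋃ l, G l) (fun y => p (v y)) f f' (j + 1))
        (G l \ C) x := by
      refine ⟨ξ, r', V', w₀, γ, ch, g1, g2, g3, g4, g5, hV', hw₀V', g8, g9, fun w hw => ?_⟩
      obtain ⟨k1, k2, k3, k4, k5, k6⟩ := g10 w (hV's hw).1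
      exact ⟨k1, k2, k3, k4, k5, fun hw0 => ⟨hcen' w hw hw0, (k6 hw0).2⟩⟩
    by_cases hhd : Hd l
    · refine (hno l hl hhd j x (badPt_mono ?_ (cor_dense h' j).1 hbp)).elim
      intro φ γ' w _ _ _ hB _
      exact hnotin _ hB.1 hB.2
    · exfalso
      have h3 : BadPt (f' j ⁻¹' Amin (f j)) (Cor (⋃ l, G l) (fun y => p (v y)) f f' (j + 1))
          ∅ x := by
        refine badPt_mono ?_ (cor_dense h' j).1 hbp
        intro φ γ' w hφ hγ hS' hB hfr
        have h4 : γ' w ∈ Hh := hin_hit h' j φ γ' w hφ hγ hS' hfr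
        refine hB.2 (mem_iUnion₂.2 ⟨(l, none), Finset.mem_univ _, ?_⟩)
        simp only [hE, Option.elim]
        rw [if_neg hhd]
        exact (hDG l hhd).1 ⟨hB.1, h4⟩
      obtain ⟨ξ', r₁, V₁, w₁, γ₁, ch₁, -, -, -, -, -, -, hw₁, h0, -, h5⟩ := h3
      exact ((h5 w₁ hw₁).2.2.2.2.2 h0).1

end

end Vale.Agent.P277.H371.L
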