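import Vale.Agent.P277.Stmts38
import Vale.Agent.P277.H371.L.Fin
import Vale.Agent.P277.H371.L.WrapL
import Vale.Agent.P277.H762.G.LexT

/-!
# P277, (LCY): the theorem
-/

set_option maxSynthPendingDepth 3

open scoped Manifold ContDiff Topology
open Vale.Agent.P272.K Vale.Agent.P285.H281.FD Vale.Agent.P267.H175 Set Filter Metric

noncomputable section

namespace Vale.Agent.P277.H371.L

open Vale.Agent.P277 Vale.Agent.P277.T3 H615 H371.C H29.E H884.T H29.CY H762.G

/-- (LCY) -/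
theorem stLCY : T3.StLCY := by
  classical
  intro Y _ _ _ _ _ χ hχ k s M hM hnef m hm hm0 ρ σ hρ hσ hρσ hsum hsum' H _ _ _ _ _ _ ι sg hbd
    hdisj W X Z r v p P G hres hne f f' A L c hc n hn hflip a' a ha' ha K hK hb' hklt hd hno
  obtain ⟨t, h4, h3, a0, a1, a2, a3, a4, b0, b1, b2⟩ := exists_t ρ σ n (c 0) (Fin.natAdd k)
    (a := fun l => toLex (∑ e, σ e * n e l / c 0 e, ∑ e, ρ e * n e l / c 0 e)) (fun l => rfl)
    (b := fun i => toLex (σ (Fin.natAdd k i), ρ (Fin.natAdd k i))) fun i => rfl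
  set τ : Fin (k + s) → ℝ := fun e => t * ρ e + (1 - t) * σ e with hτ
  have hp := tau_pos hρ hσ hρσ h4 h3 (τ := τ) fun e => rfl
  have hs := tau_sum hsum hsum' (τ := τ) (t := t) fun e => rfl
  have hfl : ∀ j, IsFlipR (X j) (Z j) (X (j + 1)) (f j) (f' j) (A j) (L j) (L (j + 1)) (c j)
      (c (j + 1)) τ := fun j => hflip j t (1 - t) h4
  obtain ⟨L', c', sσ, tt, hc', hcmp, hcorr, hcc, -, hflB, hflR⟩ :=
    wrap_coreL (ι := ι) hM hm0 hbd hres hc hn hfl
  have h' : IsPG χ M m τ ι sg v p P G f f' A L' c' sσ n tt :=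
    ⟨hχ, hM, hnef, hm, hm0, hp, hs, hbd, hdisj, hres, hne, hc', hcmp, hcorr, hflB⟩
  set d : Fin r → ℝ := fun l => ∑ e, τ e * n e l / c 0 e with hdd
  have hd' : ∀ l, d l = ∑ e, τ e * n e l / c' 0 e := by
    intro l
    simp only [hcc]
    rfl
  have hdt : ∀ l, d l = t * a l + (1 - t) * a' l := by
    intro l
    rw [ha, ha', hdd]
    simp only [hτ]
    rw [Finset.mul_sum, Finset.mul_sum, ← Finset.sum_add_distrib]
    exact Finset.sum_congr rfl fun e _ => by ring
  have hKd : ∀ l, d l < 0 ↔ l ∈ K := by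
    intro l
    rw [hK, ha', ha]
    refine (a0 l).trans ?_
    show toLex (_, _) < toLex ((0 : ℝ), (0 : ℝ)) ↔ _
    rw [Prod.Lex.toLex_lt_toLex]
  have hlt1 : ∀ i : Fin s, τ (Fin.natAdd k i) < 1 := by
    intro i
    refine (b0 i).2 ?_
    show toLex (_, _) < toLex ((1 : ℝ), (1 : ℝ))
    rw [Prod.Lex.toLex_lt_toLex]
    exact Or.inl (hb' i)
  have hklt' : ∀ l, -1 < d l := by
    intro l
    refine (a2 l).2 ?_
    show toLex ((-1 : ℝ), (-1 : ℝ)) < toLex (_, _)
    rw [Prod.Lex.toLex_lt_toLex]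
    refine Or.inl ?_
    have := hklt l
    rw [ha'] at this
    exact this
  have key : ∀ hor : (∀ N, ∃ j ≥ N, HasRes (X j) ∨ ¬ DimLe (X (j + 1)) 1 {x | f' j x ∈ Amin (f j)}) ∨
      ∀ j, DimLe (X (j + 1)) 1 {x | f' j x ∈ Amin (f j) ∧ ¬ IsReg 4 (X (j + 1)) x}, False := by
    intro hor
    refine fin_no h' hd' hor hlt1 hklt' (fun l l' hne' hl hl' => ?_) (fun l i hl => ?_)
      (fun l l' hne' hl => ?_) fun l hl hz j x hbp => ?_
    · exact ((hd l ((hKd l).1 hl)).1 l' (Ne.symm hne')).2 ((hKd l').1 hl')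
    · exact (hd l ((hKd l).1 hl)).2 i
    · exact ((hd l ((hKd l).1 hl)).1 l' (Ne.symm hne')).1
    · refine hno l ((hKd l).1 hl) hz ?_
      have hsc : ∀ u : ℝ, ∀ j, IsFlipR (X j) (Z j) (X (j + 1)) (f j) (f' j) (A j) (L' j)
          (L' (j + 1)) (c' j) (c' (j + 1)) fun e => τ e + u * σ e := by
        intro u
        refine hflR _ fun j => ?_
        have h5 := hflip j t (1 - t + u) h4
        have h6 : (fun e => t * ρ e + (1 - t + u) * σ e) = fun e => τ e + u * σ e := by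
          funext e
          simp only [hτ]
          ring
        rw [h6] at h5
        exact h5
      have hl1 : -1 < ∑ e, σ e * n e l / c' 0 e := by
        simp only [hcc]
        rw [← ha']
        exact hklt l
      obtain ⟨g, κ, k1, k2, k3⟩ := coinc h' hσ hsum' hsc hl1 j hbp
      simp only [hcc] at k2 k3
      rw [← ha'] at k2
      refine ⟨g, κ, k1, k2, ?_⟩
      have k4 : ∑ e, τ e * n e l / c 0 e = t * a l + (1 - t) * a' l := hdt l
      have k5 : ∑ e, τ e * (κ e : ℝ) = t * ∑ e, ρ e * (κ e : ℝ) + (1 - t) * ∑ e, σ e * (κ e : ℝ) := by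
        rw [Finset.mul_sum, Finset.mul_sum, ← Finset.sum_add_distrib]
        exact Finset.sum_congr rfl fun e _ => by simp only [hτ]; ring
      rw [k4, k5] at k3
      have k6 : t * (g * (1 + a l) + ∑ e, ρ e * (κ e : ℝ)) < t * 1 := by
        have k7 : (1 - t) * (g * (1 + a' l) + ∑ e, σ e * (κ e : ℝ)) = (1 - t) * 1 := by rw [k2]
        linarith
      exact lt_of_mul_lt_mul_left k6 h4.le
  constructor
  · by_contra hcon
    push Not at hcon
    refine key (Or.inl fun N => ?_)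
    obtain ⟨j, hj, h5⟩ := hcon N
    refine ⟨j, hj, ?_⟩
    by_cases h6 : DimLe (X (j + 1)) 1 {x | f' j x ∈ Amin (f j)}
    · exact Or.inl (h5 h6)
    · exact Or.inr h6
  · by_contra hcon
    push Not at hcon
    exact key (Or.inr hcon)

end Vale.Agent.P277.H371.L
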