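import Vale.Agent.P277.H371.L.StL3
import Vale.Agent.P277.H615.L.SingL
import Vale.Agent.P277.H371.L.Fin
import Vale.Agent.P277.H371.L.WrapL
import Vale.Agent.P277.H762.G.LexT

/-!
# P277, (LCY): the theorem
-/

set_option maxSynthPendingDepth 3

open scoped Manifold ContDiff Topology
open Vale.Agent.P272.K Vale.Agent.P285.H281.FD Vale.Agent.P267.H175 Set Filter Metric

noncomputable section

namespace Vale.Agent.P277.H371.L

open Vale.Agent.P277 Vale.Agent.P277.T3 H615 H371.C H29.E H884.T H29.CY H762.G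

/-- (LCY3) -/
theorem stLCY3 : T3.StLCY3 := by
  classical
  intro Y _ _ _ _ _ χ hχ k s M hM hnef m hm hm0 ρ σ hρ hσ hρσ hsum hsum' H _ _ _ _ _ _ ι sg hbd
    hdisj W X Z r v p P G hres hne f f' A L c hc n hn hflip a' a ha' ha K hK hb' hklt hd
  obtain ⟨t, h4, h3, a0, a1, a2, a3, a4, b0, b1, b2⟩ := exists_t ρ σ n (c 0) (Fin.natAdd k)
    (a := fun l => toLex (∑ e, σ e * n e l / c 0 e, ∑ e, ρ e * n e l / c 0 e)) (fun l => rfl)
    (b := fun i => toLex (σ (Fin.natAdd k i), ρ (Fin.natAdd k i))) fun i => rfl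
  set τ : Fin (k + s) → ℝ := fun e => t * ρ e + (1 - t) * σ e with hτ
  have hp := tau_pos hρ hσ hρσ h4 h3 (τ := τ) fun e => rfl
  have hs := tau_sum hsum hsum' (τ := τ) (t := t) fun e => rfl
  have hfl : ∀ j, IsFlipR (X j) (Z j) (X (j + 1)) (f j) (f' j) (A j) (L j) (L (j + 1)) (c j)
      (c (j + 1)) τ := fun j => hflip j t (1 - t) h4
  obtain ⟨L', c', sσ, tt, hc', hcmp, hcorr, hcc, -, hflB, hflR⟩ :=
    wrap_coreL (ι := ι) hM hm0 hbd hres hc hn hfl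
  have h' : IsPG χ M m τ ι sg v p P G f f' A L' c' sσ n tt :=
    ⟨hχ, hM, hnef, hm, hm0, hp, hs, hbd, hdisj, hres, hne, hc', hcmp, hcorr, hflB⟩
  set d : Fin r → ℝ := fun l => ∑ e, τ e * n e l / c 0 e with hdd
  have hd' : ∀ l, d l = ∑ e, τ e * n e l / c' 0 e := by
    intro l
    simp only [hcc]
    rfl
  have hdt : ∀ l, d l = t * a l + (1 - t) * a' l := by
    intro l
    rw [ha, ha', hdd]
    simp only [hτ]
    rw [Finset.mul_sum, Finset.mul_sum, ← Finset.sum_add_distrib]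
    exact Finset.sum_congr rfl fun e _ => by ring
  have hKd : ∀ l, d l < 0 ↔ l ∈ K := by
    intro l
    rw [hK, ha', ha]
    refine (a0 l).trans ?_
    show toLex (_, _) < toLex ((0 : ℝ), (0 : ℝ)) ↔ _
    rw [Prod.Lex.toLex_lt_toLex]
  have hlt1 : ∀ i : Fin s, τ (Fin.natAdd k i) < 1 := by
    intro i
    refine (b0 i).2 ?_
    show toLex (_, _) < toLex ((1 : ℝ), (1 : ℝ))
    rw [Prod.Lex.toLex_lt_toLex]
    exact Or.inl (hb' i)
  have hklt' : ∀ l, -1 < d l := by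
    intro l
    refine (a2 l).2 ?_
    show toLex ((-1 : ℝ), (-1 : ℝ)) < toLex (_, _)
    rw [Prod.Lex.toLex_lt_toLex]
    refine Or.inl ?_
    have := hklt l
    rw [ha'] at this
    exact this
  have hsc : ∀ u : ℝ, ∀ j, IsFlipR (X j) (Z j) (X (j + 1)) (f j) (f' j) (A j) (L' j)
      (L' (j + 1)) (c' j) (c' (j + 1)) fun e => τ e + u * σ e := by
    intro u
    refine hflR _ fun j => ?_
    have h5 := hflip j t (1 - t + u) h4
    have h6 : (fun e => t * ρ e + (1 - t + u) * σ e) = fun e => τ e + u * σ e := by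
      funext e
      simp only [hτ]
      ring
    rw [h6] at h5
    exact h5
  have hd1 : ∀ l l', l ≠ l' → d l < 0 → d l' < 0 → Disjoint (G l) (G l') := fun l l' hne' hl hl' =>
    ((hd l ((hKd l).1 hl)).1 l' (Ne.symm hne')).2 ((hKd l').1 hl')
  have hd2 : ∀ l i, d l < 0 → Disjoint (G l) (range (ι i)) := fun l i hl =>
    (hd l ((hKd l).1 hl)).2 i
  -- from `τ` to `ρ`
  have hnum : ∀ (N : ℕ) (g : Fin r → ℕ) (κ : Fin (k + s) → ℕ),
      ∑ l, (g l : ℝ) * (1 + a' l) + ∑ e, σ e * (κ e : ℝ) = N →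
      ∑ l, (g l : ℝ) * (1 + d l) + ∑ e, τ e * (κ e : ℝ) < N →
      ∑ l, (g l : ℝ) * (1 + a l) + ∑ e, ρ e * (κ e : ℝ) < N := by
    intro N g κ h5 h6
    have k4 : ∑ l, (g l : ℝ) * (1 + d l) =
        t * ∑ l, (g l : ℝ) * (1 + a l) + (1 - t) * ∑ l, (g l : ℝ) * (1 + a' l) := by
      rw [Finset.mul_sum, Finset.mul_sum, ← Finset.sum_add_distrib]
      refine Finset.sum_congr rfl fun l _ => ?_
      rw [hdt l]
      ring
    have k5 : ∑ e, τ e * (κ e : ℝ) = t * ∑ e, ρ e * (κ e : ℝ) + (1 - t) * ∑ e, σ e * (κ e : ℝ) := by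
      rw [Finset.mul_sum, Finset.mul_sum, ← Finset.sum_add_distrib]
      exact Finset.sum_congr rfl fun e _ => by simp only [hτ]; ring
    rw [k4, k5] at h6
    have k6 : t * (∑ l, (g l : ℝ) * (1 + a l) + ∑ e, ρ e * (κ e : ℝ)) < t * N := by
      have k7 : (1 - t) * (∑ l, (g l : ℝ) * (1 + a' l) + ∑ e, σ e * (κ e : ℝ)) = (1 - t) * N := by
        rw [h5]
      linarith
    exact lt_of_mul_lt_mul_left k6 h4.le
  have key : ((∀ N, ∃ j ≥ N, HasRes (X j) ∨ ¬ DimLe (X (j + 1)) 1 {x | f' j x ∈ Amin (f j)}) ∨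
      ∀ j, DimLe (X (j + 1)) 1 {x | f' j x ∈ Amin (f j) ∧ ¬ IsReg 4 (X (j + 1)) x}) →
      ∃ (l : Fin r) (g : ℕ) (κ : Fin (k + s) → ℕ), d l < 0 ∧ ZD (fun y => p (v y)) (hit f f') (G l) ∧
        1 ≤ g ∧ (g : ℝ) * (1 + a' l) + ∑ e, σ e * (κ e : ℝ) = 1 ∧
        (g : ℝ) * (1 + d l) + ∑ e, τ e * (κ e : ℝ) < 1 := by
    intro hor
    by_contra hcon
    refine fin_no h' hd' hor hlt1 hklt' hd1 hd2 (fun l l' hne' hl => ?_) fun l hl hz j x hbp => ?_
    · exact ((hd l ((hKd l).1 hl)).1 l' (Ne.symm hne')).1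
    · have hl1 : -1 < ∑ e, σ e * n e l / c' 0 e := by
        simp only [hcc]
        rw [← ha']
        exact hklt l
      obtain ⟨g, κ, k1, k2, k3⟩ := coinc h' hσ hsum' hsc hl1 j hbp
      simp only [hcc] at k2 k3
      rw [← ha'] at k2
      exact hcon ⟨l, g, κ, hl, hz, k1, k2, k3⟩
  have hsingle : ∀ (l : Fin r) (g q : ℕ) (b : Fin r → ℝ),
      ∑ l', ((Pi.single l (q * g) : Fin r → ℕ) l' : ℝ) * (1 + b l') = q * (g * (1 + b l)) := by
    intro l g q b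
    rw [Finset.sum_eq_single l]
    · rw [Pi.single_eq_same]
      push_cast
      ring
    · intro l' _ hne'
      rw [Pi.single_eq_of_ne hne']
      simp
    · intro h5
      exact absurd (Finset.mem_univ _) h5
  have hsmul : ∀ (q : ℕ) (κ : Fin (k + s) → ℕ) (w : Fin (k + s) → ℝ),
      ∑ e, w e * ((q * κ e : ℕ) : ℝ) = q * ∑ e, w e * (κ e : ℝ) := by
    intro q κ w
    rw [Finset.mul_sum]
    refine Finset.sum_congr rfl fun e _ => ?_
    push_cast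
    ring
  have one : ∀ q : ℕ, 1 ≤ q → (∃ (l : Fin r) (g : ℕ) (κ : Fin (k + s) → ℕ), d l < 0 ∧
        ZD (fun y => p (v y)) (hit f f') (G l) ∧
        1 ≤ g ∧ (g : ℝ) * (1 + a' l) + ∑ e, σ e * (κ e : ℝ) = 1 ∧
        (g : ℝ) * (1 + d l) + ∑ e, τ e * (κ e : ℝ) < 1) →
      ∃ (g : Fin r → ℕ) (κ : Fin (k + s) → ℕ), (∃ l, g l ≠ 0) ∧
        (∀ l, g l ≠ 0 → l ∈ K ∧ ZD (fun y => p (v y)) (hit f f') (G l)) ∧
        ∑ l, (g l : ℝ) * (1 + a' l) + ∑ e, σ e * (κ e : ℝ) = q ∧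
        ∑ l, (g l : ℝ) * (1 + a l) + ∑ e, ρ e * (κ e : ℝ) < q := by
    rintro q hq ⟨l, g, κ, hl, hz, k1, k2, k3⟩
    have hq' : (0 : ℝ) < q := by exact_mod_cast hq
    have e1 : ∑ l', ((Pi.single l (q * g) : Fin r → ℕ) l' : ℝ) * (1 + a' l') +
        ∑ e, σ e * ((q * κ e : ℕ) : ℝ) = q := by
      rw [hsingle, hsmul, ← mul_add, k2, mul_one]
    refine ⟨Pi.single l (q * g), fun e => q * κ e, ⟨l, ?_⟩, fun l' hl' => ?_, e1, ?_⟩
    · rw [Pi.single_eq_same]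
      positivity
    · have h5 : l' = l := by
        by_contra h6
        exact hl' (Pi.single_eq_of_ne h6 _)
      rw [h5]
      exact ⟨(hKd l).1 hl, hz⟩
    · refine hnum q _ _ e1 ?_
      rw [hsingle, hsmul, ← mul_add]
      calc (q : ℝ) * (g * (1 + d l) + ∑ e, τ e * (κ e : ℝ)) < q * 1 :=
            mul_lt_mul_of_pos_left k3 hq'
        _ = q := mul_one _
  rintro N (rfl | ⟨rfl, hor⟩)
  · by_cases hs2 : ∀ j, DimLe (X (j + 1)) 1 {x | f' j x ∈ Amin (f j) ∧ ¬ IsReg 4 (X (j + 1)) x}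
    · exact one 2 (by norm_num) (key (Or.inr hs2))
    · push Not at hs2
      obtain ⟨j, hj⟩ := hs2
      obtain ⟨g, κ, g1, g2, g3, g4⟩ := H615.LL.sing_L h' hsum' hsc hd' hlt1 hklt' hd1 hd2
        (fun l l' hne' hl => ((hd l ((hKd l).1 hl)).1 l' hne').1) j hj
      simp only [hcc] at g3
      simp only [← ha'] at g3
      refine ⟨g, κ, g1, fun l hl => ⟨(hKd l).1 (g2 l hl).1, (g2 l hl).2⟩, ?_, ?_⟩
      · exact_mod_cast g3
      · refine hnum 2 g κ (by exact_mod_cast g3) (by exact_mod_cast g4)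
  · exact one 1 le_rfl (key hor)

end Vale.Agent.P277.H371.L
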