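import Vale.Agent.P277.H371.L.ChainAll
import Vale.Agent.P277.H884.W.OrdT
import Vale.Agent.P277.H762.P.FinP

/-!
# P277, (LCY): the orders along a germ, for other weights
-/

open scoped Manifold ContDiff Topology
open Vale.Agent.P272.K Vale.Agent.P285.H281.FD Vale.Agent.P267.H175 Set Filter Metric

noncomputable section

namespace Vale.Agent.P277.H371.L

open Vale.Agent.P277 Vale.Agent.P277.T2 Vale.Agent.P277.H335 Vale.Agent.P277.H615
open Vale.Agent.P277.H335.KK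

variable {Y : Type} [TopologicalSpace Y] [ChartedSpace (Cm 4) Y] [T2Space Y] [CompactSpace Y]
  [IsManifold 𝓘(ℂ, Cm 4) ω Y]

/-- the inequality for the orders along a germ, for the weights `ρ` of a chain -/
theorem ord_lt {k r : ℕ} {V X : CSp} {vV : Y → V.pt} {D : Set Y} {M : Fin k → Bd Y} {m : Fin k → ℕ}
    {L : Fin k → Bd X.pt} {c : Fin k → ℕ} {O : Set Y} {v : Y → X.pt} {P Q : Fin k → ℕ}
    {T : ∀ e, (L e).ι → (((Bd.can 4 Y).pow (m e)).mul (M e)).ι → Y → ℂ} {ρ : Fin k → ℝ}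
    {S : Set X.pt} {G : Fin r → Set Y} {a : Fin r → ℝ} (hk : 1 ≤ k) (hM : ∀ e, IsLB 4 (M e))
    (hTw : H884.N.Tw1 vV D (fun e => ((Bd.can 4 Y).pow (m e)).mul (M e)) X L c O v P Q T)
    (hch : ChainK (fun e => ((Bd.can 4 Y).pow (m e)).mul (M e)) X L O v T
      (fun e => ρ e / Q e) S G a) (hSO : S ⊆ (v '' O)ᶜ)
    {W₁ : Set (Cm 4)} {w₂ : Cm 4} {φ : Cm 4 → X.pt} {γ : Cm 4 → Y} {ch : Chart 4 Y}
    {μ : ∀ e, (M e).ι} {i : ∀ e, (L e).ι} {x : Fin k → ℚ} {J : ℕ}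
    (hg : GermV O v T S W₁ w₂ φ γ ch μ i x J) {ζ : Fin r → Y → ℂ} {ν : Fin r → ℕ}
    {Φ : Fin r → Cm 4 → ℂ} (hζ : ∀ l, IsLEq (G l) (γ w₂) (ζ l))
    (hΦ : ∀ l, AnalyticAt ℂ (Φ l) w₂) (hΦ0 : ∀ l, Φ l w₂ ≠ 0)
    (hζΦ : ∀ l, ∀ᶠ w in 𝓝 w₂, ζ l (γ w) = w 0 ^ ν l * Φ l w) :
    ∑ l, a l * ν l < ∑ e, ρ e / Q e * x e := by
  have hv : IsOpenEmb X O v := (hTw.tw ⟨0, hk⟩).emb
  have hev : ∀ᶠ w in 𝓝 w₂, w ∈ W₁ ∧ ∀ l, IsLEq (G l) (γ w) (ζ l) ∧ AnalyticAt ℂ (Φ l) w ∧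
      Φ l w ≠ 0 ∧ ∀ᶠ w' in 𝓝 w, ζ l (γ w') = w' 0 ^ ν l * Φ l w' := by
    refine (hg.isOpen.eventually_mem hg.mem).and ?_
    rw [eventually_all]
    exact fun l => ((hg.lift w₂ hg.mem).1.eventually (H762.P.isLEq_eventually (hζ l))).and
      ((hΦ l).eventually_analyticAt.and (((hΦ l).continuousAt.eventually_ne (hΦ0 l)).and
        (hζΦ l).eventually_nhds))
  obtain ⟨W', hW's, hW', hw₂W'⟩ := _root_.mem_nhds_iff.1 hev
  have hW'W : W' ⊆ W₁ := fun w hw => (hW's hw).1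
  have hcl' := subset_closure_of_open hW' hW'W hg.dense
  obtain ⟨w₁, hw₁, hw₁0, W₃, γ₀, ch', cc, q, hW₃, hw₁W, hW₃W, hγ₀, hO1, hO2, hT, b,
    ⟨ζ', ν', A', hζ', hA', hA'f, hζA, hbs⟩, -, hpos⟩ :=
    hch W' w₂ φ i hW' hw₂W' hg.zero (fun w hw => hg.hol w (hW'W hw)) hcl'
      fun w hw => hg.memU w (hW'W hw)
  have hpos := hpos fun w hw hw0 => hg.inS w (hW'W hw) hw0
  have hw₁W₁ : w₁ ∈ W₁ := hW'W hw₁
  have hd₃ := subset_closure_of_open hW₃ hW₃W hcl'
  -- the two lifts agree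
  have hagr : ∀ w ∈ W₃, γ₀ w = γ w := by
    intro w hw
    by_contra hne
    obtain ⟨U, U', hU, hU', hwU, hwU', hd⟩ := t2_separation hne
    have h1 := (hγ₀ w hw).1.preimage_mem_nhds (hU.mem_nhds hwU)
    have h2 := (hg.lift w (hW'W (hW₃W hw))).1.preimage_mem_nhds (hU'.mem_nhds hwU')
    obtain ⟨w', ⟨h3, h4⟩, h5, h6⟩ := mem_closure_iff_nhds.1 (hd₃ hw) _ (inter_mem h1 h2)
    have h7 : γ₀ w' ∈ O := hO1 w' h5 h6
    have h8 : γ w' ∈ O := hg.lift1 w' (hW'W (hW₃W h5)) h6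
    have h9 : γ₀ w' = γ w' := hv.inj h7 h8
      ((hO2 w' h5 h7).trans (hg.lift2 w' (hW'W (hW₃W h5)) h8).symm)
    refine disjoint_left.1 hd h3 ?_
    rw [h9]; exact h4
  have hγc := (hg.lift w₁ hw₁W₁).1
  have hγat := (hg.lift w₁ hw₁W₁).2.1
  have hγan := (hg.lift w₁ hw₁W₁).2.2
  have hW₃n := hW₃.mem_nhds hw₁W
  have han : ∀ w ∈ W₁, ∀ e' : Chart 4 Y, At e' (γ w) → AnalyticAt ℂ (fun z => e' (γ z)) w := by
    intro w hw e' he'
    obtain ⟨k1, k2, k3⟩ := hg.lift w hw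
    have h1 : AnalyticAt ℂ (fun z => e' (ch.symm (ch (γ z)))) w :=
      AnalyticAt.fun_comp (g := fun z => e' (ch.symm z)) (f := fun w => ch (γ w))
        (trans_analyticAt k2 he') k3
    refine h1.congr ?_
    filter_upwards [k1.eventually_mem (ch.open_source.mem_nhds k2.2)] with z hz
    rw [ch.left_inv hz]
  -- the orders of `T e`
  have hqx : ∀ e, x e = q e := by
    intro e
    have hdn : DenseNear {w | γ w ∈ O} w₁ := by
      filter_upwards [hg.isOpen.mem_nhds hw₁W₁] with w hw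
      rw [mem_closure_iff_frequently]
      exact hg.freqO hSO hw
    have hat' : ∀ w ∈ W₃, At ch' (γ w) := fun w hw => by
      rw [← hagr w hw]; exact (hγ₀ w hw).2.1
    have hmem' : ∀ w ∈ W₃, γ w ∈ (M e).U (cc e).2 := fun w hw => by
      rw [← hagr w hw]; exact ((hγ₀ w hw).2.2.2 e).2
    have hcc' : ∀ w ∈ W₃, At (cc e).1 (γ w) := fun w hw => by
      rw [← hagr w hw]; exact ((hγ₀ w hw).2.2.2 e).1
    have h' : HasOrd {w | γ w ∈ O} w₁ (fun w => T e (i e) (cc e) (γ w)) (q e) := by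
      refine ((hT e).congr (τ' := fun w => T e (i e) (cc e) (γ w)) ?_).mono ?_
      · filter_upwards [hW₃n] with w hw _ _
        rw [hagr w hw]
      · filter_upwards [hW₃n] with w hw hwO
        show γ₀ w ∈ O
        rw [hagr w hw]; exact hwO
    refine HasOrd.unique' hw₁0 hdn ?_ (hg.ord w₁ hw₁W₁ hw₁0 e) h'
      (u := fun w => ((jacM (cc e).1 ch (γ w)).det ^ m e * (M e).g (cc e).2 (μ e) (γ w)) ^ Q e)
      ?_ ?_
    · filter_upwards [hg.isOpen.mem_nhds hw₁W₁] with w hw hwO _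
      exact ((hTw.tw e).iso.holo (γ w) hwO (i e) (ch, μ e) ch (hg.lift w hw).2.1
        (by rw [hg.lift2 w hw hwO]; exact hg.memU w hw e)
        ⟨(hg.lift w hw).2.1, hg.memN w hw e⟩).2
    · filter_upwards [hg.isOpen.mem_nhds hw₁W₁, hW₃n] with w hw hw3
      have hc1 : ContinuousAt (fun w => (jacM (cc e).1 ch (γ w)).det) w :=
        (RR.analyticAt_jac (hg.lift w hw).1 (hcc' w hw3) (hg.lift w hw).2.1
          (han w hw _ (hcc' w hw3))).continuousAt
      have hc2 : ContinuousAt (fun w => (M e).g (cc e).2 (μ e) (γ w)) w :=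
        (analyticAt_comp_chart (hg.lift w hw).1 (hg.lift w hw).2.1 (hg.lift w hw).2.2
          (g := fun y => (M e).g (cc e).2 (μ e) y)
          ((hM e).holo _ _ ch _ (hg.lift w hw).2.1 (hmem' w hw3)
            (hg.memN w hw e)).analyticAt).continuousAt
      refine ⟨((hc1.pow _).mul hc2).pow _, pow_ne_zero _ (mul_ne_zero (pow_ne_zero _ fun h1 => ?_)
        ((hM e).ne_zero _ _ _ (hmem' w hw3) (hg.memN w hw e)))⟩
      have h2 := H19.det_jacM_mul (hcc' w hw3) (hg.lift w hw).2.1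
      rw [h1, zero_mul] at h2
      exact zero_ne_one h2
    · filter_upwards [hg.isOpen.mem_nhds hw₁W₁, hW₃n] with w hw hw3 hwO _
      exact H19.isIsoY_change (M := M e) (hTw.tw e).lb (hTw.tw e).iso hwO (i := i e)
        (by rw [hg.lift2 w hw hwO]; exact hg.memU w hw e) (e := ch) (e₁ := (cc e).1)
        (hg.lift w hw).2.1 (hcc' w hw3) (hg.memN w hw e) (hmem' w hw3)
  -- the orders of the local equations
  have hνν : ∀ l, ν l = ν' l := by
    intro l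
    obtain ⟨-, hl⟩ := hW's hw₁
    obtain ⟨m1, m2, m3, m4⟩ := hl l
    have hζ'l : IsLEq (G l) (γ w₁) (ζ' l) := by rw [← hagr w₁ hw₁W]; exact hζ' l
    obtain ⟨U, hU, hU0, hUe⟩ := H884.W.leq_unit m1 hζ'l hγat
    have hUw : AnalyticAt ℂ (fun w => U (ch (γ w))) w₁ := hU.comp_of_eq hγan rfl
    have hdn : DenseNear (univ : Set (Cm 4)) w₁ := by
      refine Eventually.of_forall fun w => ?_
      rw [mem_closure_iff_nhds]
      intro N hN
      obtain ⟨w', h1, h2⟩ := H19.exists_ne_zero hN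
      exact ⟨w', h1, mem_univ _, h2⟩
    have h1 : HasOrd univ w₁ (fun w => ζ l (γ w)) (ν l : ℚ) := by
      refine ⟨1, ν l, Φ l, fun _ => 1, le_rfl, by simp, m2, analyticAt_const,
        freq_one hw₁0 m2.continuousAt m3, freq_one hw₁0 continuousAt_const one_ne_zero, ?_⟩
      filter_upwards [m4] with w g1 _ _
      rw [one_mul, pow_one, g1, zpow_natCast]
    have h2 : HasOrd univ w₁ (fun w => ζ' l (γ w)) (ν' l : ℚ) := by
      refine ⟨1, ν' l, A' l, fun _ => 1, le_rfl, by simp, hA' l, analyticAt_const, hA'f l,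
        freq_one hw₁0 continuousAt_const one_ne_zero, ?_⟩
      filter_upwards [hζA l, hW₃n] with w g1 g2 _ _
      rw [one_mul, pow_one, ← hagr w g2, g1, zpow_natCast]
    have h3 : (ν l : ℚ) = ν' l := by
      refine HasOrd.unique' hw₁0 hdn ?_ h1 h2 (u := fun w => U (ch (γ w))) ?_ ?_
      · filter_upwards [m4, m2.continuousAt.eventually_ne m3] with w g1 g2 _ g3
        rw [g1]
        exact mul_ne_zero (pow_ne_zero _ g3) g2
      · filter_upwards [hUw.eventually_analyticAt, hUw.continuousAt.eventually_ne hU0]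
          with w g1 g2 using ⟨g1.continuousAt, g2⟩
      · filter_upwards [hγc.eventually hUe] with w g1 _ _
        rw [g1, mul_comm]
    exact_mod_cast h3
  rw [hbs] at hpos
  simp only [hqx, hνν]
  exact hpos

end Vale.Agent.P277.H371.L
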