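import Vale.Agent.P277.Stmts33

/-!
# P277, (LCY): log Calabi-Yau pairs, the coincidence
-/

open scoped Manifold ContDiff Topology
open Vale.Agent.P272.K Vale.Agent.P285.H281.FD Vale.Agent.P267.H175 Set Metric Filter

noncomputable section

namespace Vale.Agent.P277.T3

/-- (LCY3) -/
def StLCY3 : Prop :=
  ∀ (Y : Type) [TopologicalSpace Y] [T2Space Y] [CompactSpace Y] [ChartedSpace (Cm 4) Y]
    [IsManifold 𝓘(ℂ, Cm 4) ω Y] (χ : Chart 4 Y → Cm 4 → Matrix (Fin 4) (Fin 4) ℂ)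
    (_ : IsKahler χ) (k s : ℕ) (M : Fin (k + s) → Bd Y) (_ : ∀ e, IsLB 4 (M e))
    (_ : ∀ e : Fin k, Nef χ (M (Fin.castAdd s e))) (m : Fin (k + s) → ℕ)
    (_ : ∀ e : Fin k, 1 ≤ m (Fin.castAdd s e)) (_ : ∀ i : Fin s, m (Fin.natAdd k i) = 0)
    (ρ σ : Fin (k + s) → ℝ) (_ : ∀ e, 0 ≤ ρ e) (_ : ∀ e, 0 ≤ σ e) (_ : ∀ e, 0 < ρ e + σ e)
    (_ : ∑ e, ρ e * m e = 1) (_ : ∑ e, σ e * m e = 1) (H : Fin s → Type)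
    [∀ i, TopologicalSpace (H i)] [∀ i, T2Space (H i)] [∀ i, CompactSpace (H i)]
    [∀ i, ConnectedSpace (H i)] [∀ i, ChartedSpace (Cm 3) (H i)]
    [∀ i, IsManifold 𝓘(ℂ, Cm 3) ω (H i)] (ι : ∀ i, H i → Y)
    (sg : ∀ i : Fin s, (M (Fin.natAdd k i)).ι → Y → ℂ)
    (_ : ∀ i, IsBd (ι i) (M (Fin.natAdd k i)) (sg i))
    (_ : Pairwise fun i j => Disjoint (range (ι i)) (range (ι j)))
    (W : CSp) (X Z : ℕ → CSp) (r : ℕ) (v : Y → W.pt) (p : W.pt → (X 0).pt) (P : Bd W.pt)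
    (G : Fin r → Set Y) (_ : T2.IsRes v p P G) (_ : ∀ i, ¬ range (ι i) ⊆ ⋃ l, G l)
    (f : ∀ j, (X j).pt → (Z j).pt) (f' : ∀ j, (X (j + 1)).pt → (Z j).pt)
    (A : ∀ j, Set (Z j).pt) (L : ∀ j, Fin (k + s) → Bd (X j).pt) (c : ℕ → Fin (k + s) → ℕ)
    (_ : ∀ j e, 1 ≤ c j e) (n : Fin (k + s) → Fin r → ℤ)
    (_ : ∃ t, T2.IsCmpV (fun y => p (v y)) (L 0)
      (fun e => (((Bd.can 4 Y).pow (m e)).mul (M e)).pow (c 0 e)) G n t)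
    (_ : ∀ j, ∀ t u : ℝ, 0 < t → IsFlipR (X j) (Z j) (X (j + 1)) (f j) (f' j) (A j)
      (L j) (L (j + 1)) (c j) (c (j + 1)) fun e => t * ρ e + u * σ e)
    (a' a : Fin r → ℝ) (_ : ∀ l, a' l = ∑ e, σ e * n e l / c 0 e)
    (_ : ∀ l, a l = ∑ e, ρ e * n e l / c 0 e) (K : Set (Fin r))
    (_ : ∀ l, l ∈ K ↔ a' l < 0 ∨ a' l = 0 ∧ a l < 0)
    (_ : ∀ i : Fin s, σ (Fin.natAdd k i) < 1) (_ : ∀ l, -1 < a' l)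
    (_ : ∀ l ∈ K, (∀ l', l' ≠ l → ¬ G l ⊆ G l' ∧ (l' ∈ K → Disjoint (G l) (G l'))) ∧
      ∀ i, Disjoint (G l) (range (ι i))),
    ∀ N : ℕ, (N = 2 ∨ N = 1 ∧ ((∀ n, ∃ j ≥ n, HasRes (X j) ∨
        ¬ DimLe (X (j + 1)) 1 {x | f' j x ∈ Amin (f j)}) ∨
        ∀ j, DimLe (X (j + 1)) 1 {x | f' j x ∈ Amin (f j) ∧ ¬ IsReg 4 (X (j + 1)) x})) →
      ∃ (g : Fin r → ℕ) (κ : Fin (k + s) → ℕ), (∃ l, g l ≠ 0) ∧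
        (∀ l, g l ≠ 0 → l ∈ K ∧ ZD (fun y => p (v y)) (hit f f') (G l)) ∧
        ∑ l, g l * (1 + a' l) + ∑ e, σ e * κ e = N ∧ ∑ l, g l * (1 + a l) + ∑ e, ρ e * κ e < N

end Vale.Agent.P277.T3
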