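import Vale.Agent.P277.H29.CY.Fin3

/-!
# P277, (LCY): flips of `D` are flips of `t D + u D'` if `D' ∼_ℝ 0`
-/

open scoped Manifold ContDiff Topology
open Vale.Agent.P272.K Vale.Agent.P285.H281.FD Vale.Agent.P267.H175 Set Filter Metric

noncomputable section

namespace Vale.Agent.P277.H371.L

open Vale.Agent.P277 Vale.Agent.P277.T2 Vale.Agent.P277.T3 Vale.Agent.P277.H615 H29.CY

theorem flip_tu {X Z : ℕ → CSp} {K : ℕ} {f : ∀ j, (X j).pt → (Z j).pt}
    {f' : ∀ j, (X (j + 1)).pt → (Z j).pt} {A : ∀ j, Set (Z j).pt}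
    {L : ∀ j, Fin K → Bd (X j).pt} {c : ℕ → Fin K → ℕ} {ρ σ : Fin K → ℝ}
    (hflip : ∀ j, IsFlipR (X j) (Z j) (X (j + 1)) (f j) (f' j) (A j) (L j) (L (j + 1)) (c j)
      (c (j + 1)) ρ)
    (h : IsRTriv (X 0) (L 0) (c 0) σ) {t : ℝ} (h0 : 0 < t) (u : ℝ) (j : ℕ) :
    IsFlipR (X j) (Z j) (X (j + 1)) (f j) (f' j) (A j) (L j) (L (j + 1)) (c j)
      (c (j + 1)) fun e => t * ρ e + u * σ e := by
  have htr : ∀ j, σ ∈ RTg (X j) (L j) (c j) := by
    intro j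
    induction j with
    | zero => exact IsRTriv.mem h
    | succ j ih => exact RTg_trans (hflip j) ih
  have h6 : (fun e => u * σ e) ∈ RTg (X j) (L j) (c j) := Submodule.smul_mem _ u (htr j)
  have h7 : (fun e => u * σ e) ∈ RTg (X (j + 1)) (L (j + 1)) (c (j + 1)) :=
    Submodule.smul_mem _ u (htr (j + 1))
  exact isFlipR_twist (hflip j) (RTg_le h6) (RTg_le h7) h0

end Vale.Agent.P277.H371.L
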